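import Vale.Agent.P143.MathlibUsed

/-!
Definitions used in the final statement for P143.
-/

namespace Vale.Agent.P143

open MeasureTheory ProbabilityTheory Filter Topology SimpleGraph unitInterval
open scoped ENNReal

variable {V : Type*}

/-- The spanning trees of a subgraph `H` of `G`, as points of `{0,1}^E(G)`: all open edges
belong to `H`, and the open edges form a tree on the vertex set of `H`. -/
def spanningTrees {G : SimpleGraph V} (H : G.Subgraph) : Set (G.edgeSet → Bool) :=
  {ω | (∀ e : G.edgeSet, ω e = true → (e : Sym2 V) ∈ H.edgeSet) ∧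
    ((fromEdgeSet {e : Sym2 V | ∃ h : e ∈ G.edgeSet, ω ⟨e, h⟩ = true}).induce H.verts).IsTree}

/-- Law of the uniform spanning tree of `H`. -/
noncomputable def ust {G : SimpleGraph V} (H : G.Subgraph) : Measure (G.edgeSet → Bool) :=
  uniformOn (spanningTrees H)

/-- Increasing sequence of finite connected subgraphs of `G` with union `G`. -/
structure IsExhaustion {G : SimpleGraph V} (H : ℕ → G.Subgraph) : Prop where
  mono : Monotone H
  finite : ∀ n, (H n).verts.Finite
  connected : ∀ n, (H n).Connected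
  union : ⨆ n, H n = ⊤

/-- `μ` is the law of the free uniform spanning forest of `G`: the weak limit on `{0,1}^E(G)`
of the uniform spanning trees along every exhaustion (and exhaustions exist). -/
def IsFUSF (G : SimpleGraph V) (μ : Measure (G.edgeSet → Bool)) : Prop :=
  IsProbabilityMeasure μ ∧ (∃ H : ℕ → G.Subgraph, IsExhaustion H) ∧
    ∀ H : ℕ → G.Subgraph, IsExhaustion H → ∀ f : C(G.edgeSet → Bool, ℝ),
      Tendsto (fun n => ∫ ω, f ω ∂(ust (H n))) atTop (𝓝 (∫ ω, f ω ∂μ))

/-- The law of i.i.d. uniform `[0,1]` vertex labels. -/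
noncomputable def iidLabels (V : Type*) : Measure (V → I) :=
  Measure.infinitePi fun _ : V => (volume : Measure I)

/-- Left multiplication by `γ` as an automorphism of a (right) Cayley graph. -/
def leftMul {Γ : Type*} [Group Γ] (S : Set Γ) (γ : Γ) : mulCayley S ≃g mulCayley S where
  toEquiv := Equiv.mulLeft γ
  map_rel_iff' := by
    intro a b
    simp [mulCayley_adj', mul_assoc]

/-- A probability measure `μ` on `{0,1}^E` of a Cayley graph is a factor of IID for the group. -/
def IsGroupFactor {Γ : Type*} [Group Γ] (S : Set Γ)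
    (μ : Measure ((mulCayley S).edgeSet → Bool)) : Prop :=
  ∃ Φ : (Γ → I) → (mulCayley S).edgeSet → Bool, Measurable Φ ∧
    (∀ (γ : Γ) (U : Γ → I) (e : (mulCayley S).edgeSet),
      Φ (fun v => U (γ⁻¹ * v)) e = Φ U ((leftMul S γ⁻¹).mapEdgeSet e)) ∧
    μ = (iidLabels Γ).map Φ

/-- A Borel function of a graph, vertex labels and an edge, invariant under isomorphism.
The vertex set of the (infinite, countable) graph is `ℕ`. -/
structure IsGraphRule (Φ : SimpleGraph ℕ → (ℕ → I) → Sym2 ℕ → Bool) : Prop where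
  measurable : ∀ e, Measurable fun p : SimpleGraph ℕ × (ℕ → I) => Φ p.1 p.2 e
  invariant : ∀ (τ : ℕ ≃ ℕ) (G : SimpleGraph ℕ) (U : ℕ → I) (e : Sym2 ℕ),
    Φ (G.map τ.toEmbedding) (U ∘ τ.symm) (e.map τ) = Φ G U e

/-- The law of the random edge set `{e : Φ(G,U,e)=1}`. -/
noncomputable def ruleLaw (Φ : SimpleGraph ℕ → (ℕ → I) → Sym2 ℕ → Bool) (G : SimpleGraph ℕ) :
    Measure (G.edgeSet → Bool) :=
  (iidLabels ℕ).map fun U (e : G.edgeSet) => Φ G U e

/-- Law of a unimodular random rooted graph (infinite, connected, locally finite), realized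
on the vertex set `ℕ`: the mass transport principle holds for all isomorphism-invariant
Borel functions of a graph with two distinguished vertices. -/
structure IsUnimodular (ρ : Measure (SimpleGraph ℕ × ℕ)) : Prop where
  prob : IsProbabilityMeasure ρ
  graph : ∀ᵐ p ∂ρ, p.1.Connected ∧ ∀ v, (p.1.neighborSet v).Finite
  mtp : ∀ f : SimpleGraph ℕ × ℕ × ℕ → ℝ≥0∞, Measurable f →
    (∀ (τ : ℕ ≃ ℕ) (G : SimpleGraph ℕ) (x y : ℕ),
      f (G.map τ.toEmbedding, τ x, τ y) = f (G, x, y)) →
    ∫⁻ p, ∑' v, f (p.1, p.2, v) ∂ρ = ∫⁻ p, ∑' v, f (p.1, v, p.2) ∂ρ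

end Vale.Agent.P143
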