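import Mathlib.Analysis.SpecialFunctions.ImproperIntegrals
import Mathlib.Combinatorics.SimpleGraph.Acyclic
import Mathlib.Combinatorics.SimpleGraph.Cayley
import Mathlib.MeasureTheory.Constructions.SimpleGraph
import Mathlib.MeasureTheory.Measure.RegularityCompacts
import Mathlib.MeasureTheory.Order.Group.Lattice
import Mathlib.ModelTheory.Graph
import Mathlib.Order.CompletePartialOrder
import Mathlib.Probability.Independence.InfinitePi
import Mathlib.Probability.Kernel.Representation
import Mathlib.Tactic
import Mathlib.Topology.UniformSpace.Uniformizable

/-! The part of Mathlib that the development of this folder uses. -/
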